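import Vale.Agent.P011Z.Cl.Uni3.Id

/-!
The quadratic space of dimension ten attached to a singular element, and unipotent elements.
-/

open Matrix Module

noncomputable section

namespace Vale.Agent.P011Z.Cl.Uni3x

open Vale.Agent.P011.D4 Vale.Agent.P011.D4.Oct Vale.Agent.P011.E6 Vale.Agent.P011.E6.Alb

variable {D : ED} {χ : Gq → Fin 3} {α : Gq → O → O} {c0 : Om} {g : Fin 3 → Om}

/-- Two orthogonal fixed vectors, the first one isotropic. -/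
theorem exists_vw (hn : D.NF χ α c0 g) (h : D.OK) (h0 : ∀ σ ∈ D.G, χ σ = 0)
    {e : J} {c : Om} (he : adj e = 0) (hfe : ∀ σ ∈ D.G, al σ (α σ) e = e) (hc : Fx D.G c)
    (hcm : c ^ 2 * (g 0 * g 1 * g 2) ^ 2 * tf e (wtJ g e) = 1)
    (L : (Fin 3 → Om) × (Fin 3 → Om) →ₗ[Om] J) (hL : Function.Injective L)
    (hLV : ∀ p, ∃ y, cross (wtJ g e) y = L p)
    (hloc : ∀ ι γ, Cj ι γ → γ ∈ D.G → ∃ x, x ≠ 0 ∧ (∃ y, cross (wtJ g e) y = x) ∧ adj x = 0 ∧
      (γ ∈ D.K → al γ (α γ) x = x) ∧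
        (γ ∉ D.K → c • cross (wtJ g e) (wtJ g (al γ (α γ) x)) = x)) :
    ∃ v w : J, v ≠ 0 ∧ (∀ t : Om, w ≠ t • v) ∧ adj v = 0 ∧ cross v w = 0 ∧
      ∀ x, x = v ∨ x = w → (∃ y, cross (wtJ g e) y = x) ∧ (∀ σ ∈ D.K, al σ (α σ) x = x) ∧
        ∀ σ ∈ D.G, σ ∉ D.K → c • cross (wtJ g e) (wtJ g (al σ (α σ) x)) = x := by
  classical
  have := fd_J
  have ha := hn.ha
  have hg := hn.g0
  have hgF : ∀ σ ∈ D.G, ∀ i, σ (g i) = g i := fun σ hσ => hn.gF σ hσ (h0 σ hσ)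
  have he' := adj_wt hg he
  have hW := Frmx.wtJ_lin g
  have hμ : tf e (wtJ g e) ≠ 0 := fun h1 => by
    rw [h1, mul_zero] at hcm
    exact zero_ne_one hcm
  have hA : ∀ σ ∈ D.G, ∀ y, al σ (α σ) (cross (wtJ g e) y) = cross (wtJ g e) (al σ (α σ) y) :=
    fun σ hσ y => by rw [cross_al ha hσ, al_wt ha hσ (hgF σ hσ), hfe σ hσ]
  have hN : ∀ σ ∈ D.G, ∀ y, al σ (α σ) (c • cross (wtJ g e) (wtJ g y)) =
      c • cross (wtJ g e) (wtJ g (al σ (α σ) y)) := fun σ hσ y => by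
    rw [(semi_al ha hσ).smul, hc σ hσ, hA σ hσ, al_wt ha hσ (hgF σ hσ)]
  obtain ⟨C, hC⟩ := exists_crossL
  obtain ⟨T, hT⟩ := exists_tfL
  obtain ⟨V, hV⟩ : ∃ V : Submodule Om J, ∀ x, x ∈ V ↔ ∃ y, cross (wtJ g e) y = x :=
    ⟨LinearMap.range (C (wtJ g e)), fun x => by simp only [LinearMap.mem_range, hC]⟩
  have hP : ∀ x ∈ V, cross (wtJ g e) (cross e x) = tf e (wtJ g e) • x := fun x hx => by
    obtain ⟨y, rfl⟩ := (hV x).1 hx
    exact sing2 he' e y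
  have hNN : ∀ x ∈ V, c • cross (wtJ g e) (wtJ g (c • cross (wtJ g e) (wtJ g x))) = x :=
    fun x hx => by
      rw [cross_wt hg e x, hW.map_smul, hW.map_smul, wt_inv hg, cross_smul_right,
        cross_smul_right, hP x hx, smul_smul, smul_smul, smul_smul, ← pow_two, hcm, one_smul]
  have hAV : ∀ σ ∈ D.G, ∀ x ∈ V, al σ (α σ) x ∈ V := fun σ hσ x hx => by
    obtain ⟨y, rfl⟩ := (hV x).1 hx
    exact (hV _).2 ⟨_, (hA σ hσ y).symm⟩
  obtain ⟨τ, hK, hD⟩ : ∃ τ : Gq → V → V, (∀ σ ∈ D.K, ∀ x, (τ σ x : J) = al σ (α σ) x) ∧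
      ∀ σ, σ ∉ D.K → ∀ x, (τ σ x : J) = c • cross (wtJ g e) (wtJ g (al σ (α σ) x)) :=
    ⟨fun σ x => if hσ : σ ∈ D.K then ⟨_, hAV σ (h.le hσ) x x.2⟩ else
      ⟨c • cross (wtJ g e) (wtJ g (al σ (α σ) x)), V.smul_mem c ((hV _).2 ⟨_, rfl⟩)⟩,
      fun σ hσ x => by simp only [dif_pos hσ], fun σ hσ x => by simp only [dif_neg hσ]⟩
  have hmul : ∀ σ ∈ D.G, ∀ ρ ∈ D.G, ∀ x, τ σ (τ ρ x) = τ (σ * ρ) x := by
    intro σ hσ ρ hρ x
    have hi := h.ix σ hσ ρ hρ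
    refine Subtype.ext ?_
    by_cases h1 : σ ∈ D.K <;> by_cases h2 : ρ ∈ D.K
    · rw [hK σ h1, hK ρ h2, hK _ (mul_mem h1 h2), al_al ha hσ hρ]
    · rw [hK σ h1, hD ρ h2, hD _ fun h3 => h2 ((hi.1 h3).1 h1), hN σ hσ, al_al ha hσ hρ]
    · rw [hD σ h1, hK ρ h2, hD _ fun h3 => h1 ((hi.1 h3).2 h2), al_al ha hσ hρ]
    · rw [hD σ h1, hD ρ h2, hK _ (hi.2 (iff_of_false h1 h2)), hN σ hσ, al_al ha hσ hρ,
        hNN _ (hAV _ (mul_mem hσ hρ) x x.2)]
  have hone : ∀ x, τ 1 x = x := fun x => Subtype.ext (by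
    rw [hK 1 D.K.one_mem]
    exact (ta_al ha).one x.1)
  have hta : TA D.G τ := by
    refine ⟨h.opn.mono h.le, fun σ hσ => ⟨fun x y => Subtype.ext ?_, fun t x => Subtype.ext ?_,
      Function.bijective_iff_has_inverse.2 ⟨τ σ⁻¹, fun x => ?_, fun x => ?_⟩⟩, hmul, fun x => ?_⟩
    · by_cases h1 : σ ∈ D.K
      · rw [Submodule.coe_add, hK σ h1, hK σ h1, hK σ h1, Submodule.coe_add, (semi_al ha hσ).add]
      · rw [Submodule.coe_add, hD σ h1, hD σ h1, hD σ h1, Submodule.coe_add, (semi_al ha hσ).add,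
          hW.map_add, cross_add_right, smul_add]
    · by_cases h1 : σ ∈ D.K
      · rw [Submodule.coe_smul, hK σ h1, hK σ h1, Submodule.coe_smul, (semi_al ha hσ).smul]
      · rw [Submodule.coe_smul, hD σ h1, hD σ h1, Submodule.coe_smul, (semi_al ha hσ).smul,
          hW.map_smul, cross_smul_right, smul_comm]
    · rw [hmul _ (inv_mem hσ) σ hσ, inv_mul_cancel, hone]
    · rw [hmul σ hσ _ (inv_mem hσ), mul_inv_cancel, hone]
    · obtain ⟨H, hH, h1⟩ := (ta_al ha).smo x.1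
      exact ⟨H ⊓ D.K, hH.inf h.opn, fun σ hσ hσG => Subtype.ext (by
        rw [hK σ hσ.2]
        exact h1 σ hσ.1 hσG)⟩
  obtain ⟨B, hB⟩ : ∃ B : V →ₗ[Om] V →ₗ[Om] Om, ∀ x y, B x y = tf e (cross (x : J) y) :=
    ⟨(C.compr₂ (T e)).compl₁₂ V.subtype V.subtype, fun x y => by
      rw [LinearMap.compl₁₂_apply, LinearMap.compr₂_apply, hC, hT]
      rfl⟩
  have hBe : ∀ σ ∈ D.G, ∀ x y, B (τ σ x) (τ σ y) = σ (B x y) := by
    intro σ hσ x y
    rw [hB, hB, ← tf_al ha hσ, hfe σ hσ, cross_al ha hσ]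
    by_cases h1 : σ ∈ D.K
    · rw [hK σ h1, hK σ h1]
    · rw [hD σ h1, hD σ h1, cross_smul_left, cross_smul_right, sing1 he', cross_wt hg,
        tf_smul_right, tf_smul_right, tf_smul_right, tf_smul_right, tf_wt g e (wtJ g⁻¹ _),
        wt_inv hg]
      linear_combination tf e (cross (al σ (α σ) x) (al σ (α σ) y)) * hcm
  have hBc : ∀ x y : V, B x y = 0 → cross (x : J) y = 0 := fun x y hxy => by
    obtain ⟨p, hp⟩ := (hV _).1 x.2
    obtain ⟨q, hq⟩ := (hV _).1 y.2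
    rw [hB, ← hp, ← hq, sing1 he', tf_smul_right] at hxy
    rw [← hp, ← hq, sing1 he', (mul_eq_zero.1 hxy).resolve_right hμ, zero_smul]
  have h6 : 6 ≤ finrank Om V := by
    have h1 := LinearMap.finrank_le_finrank_of_injective
      (f := L.codRestrict V fun p => (hV _).2 (hLV p))
      fun p q hpq => hL (congrArg Subtype.val hpq)
    rwa [Module.finrank_prod, Module.finrank_fin_fun] at h1
  obtain ⟨v, v0, hv, hvv⟩ := hm hta B (fun x y => by rw [hB, hB, cross_comm]) hBe (by omega)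
    fun ι γ h1 h2 => by
      obtain ⟨x, x0, h3, h4, h5, h6⟩ := hloc ι γ h1 h2
      refine ⟨⟨x, (hV x).2 h3⟩, fun h7 => x0 (congrArg Subtype.val h7), Subtype.ext ?_, ?_⟩
      · by_cases h7 : γ ∈ D.K
        · exact (hK γ h7 _).trans (h5 h7)
        · exact (hD γ h7 _).trans (h6 h7)
      · rw [hB, Alb.cross_self, h4, smul_zero, tf_zero_right]
  obtain ⟨w, hw1, hw2, hw3⟩ : ∃ w : V, B v w = 0 ∧ Fv D.G τ w ∧ w ∉ Submodule.span Om {v} := by
    by_contra hcon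
    push Not at hcon
    have h1 := hta.sub (LinearMap.ker (B v)) fun σ hσ x hx => by
      rw [LinearMap.mem_ker] at hx ⊢
      rw [← hv σ hσ, hBe σ hσ, hx, map_zero]
    have h2 : LinearMap.ker (B v) ≤ Submodule.span Om {v} :=
      h1.trans (Submodule.span_le.2 fun x hx => hcon x hx.1 hx.2)
    have h3 := Submodule.finrank_mono h2
    have h4 := LinearMap.finrank_range_add_finrank_ker (B v)
    have h5 := (LinearMap.range (B v)).finrank_le
    rw [finrank_span_singleton v0] at h3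
    rw [Module.finrank_self] at h5
    omega
  have h7 := hBc v v hvv
  rw [Alb.cross_self] at h7
  refine ⟨v, w, fun h1 => v0 (Subtype.ext h1), fun t ht => hw3 (Submodule.mem_span_singleton.2
    ⟨t, Subtype.ext ht.symm⟩), (smul_eq_zero.1 h7).resolve_left two_ne_zero, hBc v w hw1, ?_⟩
  have h8 : ∀ x : V, Fv D.G τ x → (∃ y, cross (wtJ g e) y = x) ∧
      (∀ σ ∈ D.K, al σ (α σ) x = x) ∧
        ∀ σ ∈ D.G, σ ∉ D.K → c • cross (wtJ g e) (wtJ g (al σ (α σ) x)) = x := fun x hx =>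
    ⟨(hV _).1 x.2, fun σ hσ => by rw [← hK σ hσ, hx σ (h.le hσ)],
      fun σ hσ h1 => by rw [← hD σ h1, hx σ hσ]⟩
  rintro x (rfl | rfl)
  exacts [h8 v hv, h8 w hw2]

/-- The unipotent element. -/
theorem core (hn : D.NF χ α c0 g) (h : D.OK) (h0 : ∀ σ ∈ D.G, χ σ = 0)
    {e : J} {c : Om} (he : adj e = 0) (hfe : ∀ σ ∈ D.G, al σ (α σ) e = e)
    (hcm : c ^ 2 * (g 0 * g 1 * g 2) ^ 2 * tf e (wtJ g e) = 1) {v w : J} (v0 : v ≠ 0)
    (hw : ∀ t : Om, w ≠ t • v) (hv : adj v = 0) (hvw : cross v w = 0)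
    (hx : ∀ x, x = v ∨ x = w → (∃ y, cross (wtJ g e) y = x) ∧ (∀ σ ∈ D.K, al σ (α σ) x = x) ∧
        ∀ σ ∈ D.G, σ ∉ D.K → c • cross (wtJ g e) (wtJ g (al σ (α σ) x)) = x) :
    ¬ AniL D.grp := by
  have ha := hn.ha
  have hg := hn.g0
  have he' := adj_wt hg he
  have hW := Frmx.wtJ_lin g
  have hμ : tf e (wtJ g e) ≠ 0 := fun h1 => by
    rw [h1, mul_zero] at hcm
    exact zero_ne_one hcm
  obtain ⟨⟨p, hp⟩, v1, v2⟩ := hx v (Or.inl rfl)
  obtain ⟨⟨q, hq⟩, w1, w2⟩ := hx w (Or.inr rfl)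
  have h1 : tf v (cross e w) = 0 := by rw [cross_comm, ← tf_cross, hvw, tf_zero_left]
  have hPv : cross (wtJ g e) (cross e v) = tf e (wtJ g e) • v := by rw [← hp, sing2 he']
  have hPw : cross (wtJ g e) (cross e w) = tf e (wtJ g e) • w := by rw [← hq, sing2 he']
  refine h.uni (lie_vo h1) (vo_cube hv h1) (fun h2 => ?_) fun σ hσ => ⟨fun hK x => ?_,
    fun hK x y => ?_⟩
  · obtain ⟨y, hy⟩ : ∃ y, tf v y ≠ 0 := by
      by_contra hc
      push Not at hc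
      exact v0 (eq_zero_of_tf hc)
    have h3 := LinearMap.congr_fun h2 (cross (wtJ g e) y)
    have h4 : cross v (cross (wtJ g e) y) = tf v y • wtJ g e := by
      have h5 : tf (wtJ g e) (cross p y) = tf v y := by rw [← tf_cross, hp]
      rw [← h5, ← sing1 he', hp]
    rw [voL_apply, vo, h1, zero_smul, zero_add, h4, cross_smul_left, hPw, LinearMap.zero_apply,
      sub_eq_zero, smul_smul] at h3
    refine hw ((tf v y * tf e (wtJ g e))⁻¹ * tf (cross (wtJ g e) y) (cross e w)) ?_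
    rw [mul_smul, h3, smul_smul, inv_mul_cancel₀ (mul_ne_zero hy hμ), one_smul]
  · obtain ⟨t, ht⟩ := hn.base σ hK (h0 σ hσ)
    rw [ht, ht, map_smul, voL_apply, voL_apply, vo_al ha hσ, cross_al ha hσ, hfe σ hσ, v1 σ hK,
      w1 σ hK]
  · obtain ⟨t, ht⟩ := hn.dual σ hσ hK (h0 σ hσ)
    have hgF := hn.gF σ hσ (h0 σ hσ)
    have h2 : (c * tf e (wtJ g e)) • wtJ g (al σ (α σ) v) = cross e v := by
      have h3 : wtJ g (al σ (α σ) v) =
          cross e ((g 0 * g 1 * g 2) ^ 2 • wtJ g⁻¹ (al σ (α σ) p)) := by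
        rw [← hp, cross_al ha hσ, al_wt ha hσ hgF, hfe σ hσ, ← wt_inv hg (al σ (α σ) p),
          cross_wt hg, hW.map_smul, wt_inv hg, inv_wt hg, cross_smul_right]
      conv_rhs => rw [← v2 σ hσ hK, cross_smul_right, h3, sing2 he, ← h3, tf_comm, smul_smul]
    have h3 : (c * (g 0 * g 1 * g 2) ^ 2) • wtJ g⁻¹ (cross e (al σ (α σ) w)) = w := by
      rw [mul_smul, ← cross_wt hg, w2 σ hσ hK]
    have h4 : wtJ g (al σ (α σ) (vo v (cross e w) y)) =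
        vo (cross e v) w (wtJ g (al σ (α σ) y)) := by
      rw [vo_al ha hσ, cross_al ha hσ, hfe σ hσ, ← vo_wt hg, ← h2]
      conv_rhs => rw [← h3, vo_smul]
      rw [show c * tf e (wtJ g e) * (c * (g 0 * g 1 * g 2) ^ 2) = 1 by linear_combination hcm,
        one_smul]
    rw [ht, ht, voL_apply, voL_apply, h4, tf_smul_right, tf_smul_right, ← tf_vo w, vo_skew hvw,
      tf_neg_left, mul_neg]

end Vale.Agent.P011Z.Cl.Uni3x

end
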