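import Vale.Agent.P011Z.Cl.Uni3.Id

/-!
Explicit singular elements of the Albert algebra.
-/

open Matrix Module

noncomputable section

namespace Vale.Agent.P011Z.Cl.Uni3x

open Vale.Agent.P011.D4 Vale.Agent.P011.D4.Oct Vale.Agent.P011.E6 Vale.Agent.P011.E6.Alb

/-- The symmetric matrix of rank one. -/
def rk (a : Fin 3 → Om) : J :=
  ⟨a 0 ^ 2, a 1 ^ 2, a 2 ^ 2, (a 1 * a 2) • 1, (a 2 * a 0) • 1, (a 0 * a 1) • 1⟩

/-- The alternating matrix times an octonion. -/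
def pv (p : Fin 3 → Om) (y : O) : J := ⟨0, 0, 0, p 0 • y, p 1 • y, p 2 • y⟩

theorem wt_eq (g : Fin 3 → Om) (x : J) : wtJ g x = ⟨g 0 ^ 2 * x.d1, g 1 ^ 2 * x.d2, g 2 ^ 2 * x.d3,
    (g 1 * g 2) • x.x1, (g 2 * g 0) • x.x2, (g 0 * g 1) • x.x3⟩ := rfl

theorem al_eq (σ : Gq) (a : O → O) (x : J) :
    al σ a x = ⟨σ x.d1, σ x.d2, σ x.d3, a x.x1, a x.x2, a x.x3⟩ := rfl

theorem bil11 : bil (1 : O) 1 = 2 := by rw [bil_self, Oct.norm_one, mul_one]

theorem cross_rk (a b : Fin 3 → Om) : cross (rk a) (rk b) = rk (crossProduct a b) := by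
  ext1 <;> simp only [cross, rk, cross_apply, bil_smul_left, bil_smul_right, bil11, cons_val_zero,
    cons_val_one, cons_val_two, smul_mul_oct, mul_smul_oct, mul_one, star_add, star_smul_oct,
    star_one, head_cons, tail_cons, Nat.succ_eq_add_one, Nat.reduceAdd, Fin.isValue] <;>
    first | ring1 | module

theorem rk_smul (t : Om) (a : Fin 3 → Om) : rk (t • a) = t ^ 2 • rk a := by
  ext1 <;> simp only [rk, Pi.smul_apply, smul_eq_mul, d1_smul, d2_smul, d3_smul, x1_smul, x2_smul,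
    x3_smul] <;> first | ring1 | module

theorem adj_rk (a : Fin 3 → Om) : adj (rk a) = 0 := by
  have h := cross_rk a a
  have h0 : rk 0 = 0 := by rw [← zero_smul Om a, rk_smul, zero_pow two_ne_zero, zero_smul]
  rw [_root_.cross_self, h0, Alb.cross_self] at h
  exact (smul_eq_zero.1 h).resolve_left two_ne_zero

theorem tf_rk (a b : Fin 3 → Om) : tf (rk a) (rk b) = (a ⬝ᵥ b) ^ 2 := by
  simp only [tf, rk, bil_smul_left, bil_smul_right, bil11, dotProduct, Fin.sum_univ_three]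
  ring

theorem wt_rk (g a : Fin 3 → Om) : wtJ g (rk a) = rk (g * a) := by
  ext1 <;> simp only [wt_eq, rk, Pi.mul_apply] <;> first | ring1 | module

theorem rk_ne {a : Fin 3 → Om} (h : a ≠ 0) : rk a ≠ 0 := fun h1 => h (by
  funext i
  fin_cases i
  exacts [pow_eq_zero_iff two_ne_zero |>.1 (congrArg Alb.d1 h1),
    pow_eq_zero_iff two_ne_zero |>.1 (congrArg Alb.d2 h1),
    pow_eq_zero_iff two_ne_zero |>.1 (congrArg Alb.d3 h1)])

theorem cross_pv (a p : Fin 3 → Om) {y : O} (hy : bil y 1 = 0) :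
    cross (rk a) (pv p y) = (-(a ⬝ᵥ p)) • pv a y := by
  have h1 : bil 1 y = 0 := by rw [bil_comm, hy]
  have h2 : star y = -y := star_eq_neg_iff.2 hy
  ext1 <;> simp only [cross, rk, pv, bil_smul_left, bil_smul_right, h1, smul_mul_oct, mul_smul_oct,
    mul_one, one_mul, star_add, star_smul_oct, h2, d1_smul, d2_smul, d3_smul, x1_smul, x2_smul,
    x3_smul, dotProduct, Fin.sum_univ_three] <;> first | ring1 | module

theorem wt_pv (g u : Fin 3 → Om) (y : O) :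
    wtJ g (pv (g * u) y) = (g 0 * g 1 * g 2) • pv u y := by
  ext1 <;> simp only [wt_eq, pv, Pi.mul_apply, d1_smul, d2_smul, d3_smul, x1_smul, x2_smul,
    x3_smul] <;> first | ring1 | module

theorem adj_pv (p : Fin 3 → Om) {y : O} (hy : bil y 1 = 0) (hn : norm y = 0) :
    adj (pv p y) = 0 := by
  have h1 : y * y = 0 := by rw [mul_self_eq, hy, hn, zero_smul, zero_smul, sub_zero]
  ext1 <;> simp [adj, pv, Oct.norm_smul, hn, smul_mul_oct, mul_smul_oct, h1]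

theorem pv_lin (p : Fin 3 → Om) : IsLinearMap Om (pv p) := by
  refine ⟨fun x y => ?_, fun t x => ?_⟩
  · ext1 <;> simp [pv]
  · ext1 <;> simp [pv, smul_comm t]

theorem pv_ne {p : Fin 3 → Om} (hp : p ≠ 0) {y : O} (h : pv p y = 0) : y = 0 := by
  by_contra hy
  refine hp (funext fun i => ?_)
  fin_cases i
  exacts [(smul_eq_zero.1 (congrArg Alb.x1 h)).resolve_right hy,
    (smul_eq_zero.1 (congrArg Alb.x2 h)).resolve_right hy,
    (smul_eq_zero.1 (congrArg Alb.x3 h)).resolve_right hy]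

variable {G : Subgroup Gq} {α : Gq → O → O} {σ : Gq}

theorem al_rk (h : HA G α) (hσ : σ ∈ G) {a : Fin 3 → Om} (ha : ∀ i, σ (a i) = a i) :
    al σ (α σ) (rk a) = rk a := by
  simp only [al_eq, rk, map_pow, (h.semi σ hσ).smul, map_mul, ha, Trix.fv_one h σ hσ]

theorem al_pv (h : HA G α) (hσ : σ ∈ G) {p : Fin 3 → Om} (hp : ∀ i, σ (p i) = p i) (y : O) :
    al σ (α σ) (pv p y) = pv p (α σ y) := by
  simp only [al_eq, pv, map_zero, (h.semi σ hσ).smul, hp]

/-- Vectors orthogonal to `a` are cross products. -/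
theorem rk_mem {a u w : Fin 3 → Om} (hm : a ⬝ᵥ u ≠ 0) (hw : a ⬝ᵥ w = 0) :
    ∃ y, cross (rk a) y = rk w := by
  refine ⟨rk ((a ⬝ᵥ u)⁻¹ • crossProduct w u), ?_⟩
  rw [cross_rk, map_smul, cross_cross_eq_smul_sub_smul', dotProduct_comm w, hw, zero_smul,
    sub_zero, smul_smul,
    inv_mul_cancel₀ hm, one_smul]

/-- The isotropic vectors of the complement are fixed. -/
theorem rk_iso {g u w : Fin 3 → Om} (h1 : (g * u) ⬝ᵥ w = 0) (h2 : (g * w) ⬝ᵥ w = 0) :
    cross (rk (g * u)) (rk (g * w)) = (-(g 0 * g 1 * g 2 * ((g * u) ⬝ᵥ u))) • rk w := by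
  simp only [dotProduct, Fin.sum_univ_three, Pi.mul_apply] at h1 h2
  rw [cross_rk]
  ext1 <;> simp only [rk, cross_apply, cons_val_zero, cons_val_one, cons_val_two, head_cons,
    tail_cons, Nat.succ_eq_add_one, Nat.reduceAdd, Fin.isValue, Pi.mul_apply, d1_smul, d2_smul,
    d3_smul, x1_smul, x2_smul, x3_smul, dotProduct, Fin.sum_univ_three, smul_smul]
  · linear_combination (g 1 * g 2 * (g 1 * u 1 ^ 2 + g 2 * u 2 ^ 2)) * h2 +
      (g 1 * g 2 * (g 0 * u 0 * w 0 - g 1 * u 1 * w 1 - g 2 * u 2 * w 2)) * h1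
  · linear_combination (g 2 * g 0 * (g 2 * u 2 ^ 2 + g 0 * u 0 ^ 2)) * h2 +
      (g 2 * g 0 * (g 1 * u 1 * w 1 - g 2 * u 2 * w 2 - g 0 * u 0 * w 0)) * h1
  · linear_combination (g 0 * g 1 * (g 0 * u 0 ^ 2 + g 1 * u 1 ^ 2)) * h2 +
      (g 0 * g 1 * (g 2 * u 2 * w 2 - g 0 * u 0 * w 0 - g 1 * u 1 * w 1)) * h1
  · congr 1
    linear_combination (-(g 0 * g 1 * g 2) * u 1 * u 2) * h2 +
      (g 0 * g 1 * g 2 * (u 1 * w 2 + w 1 * u 2)) * h1
  · congr 1
    linear_combination (-(g 0 * g 1 * g 2) * u 2 * u 0) * h2 +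
      (g 0 * g 1 * g 2 * (u 2 * w 0 + w 2 * u 0)) * h1
  · congr 1
    linear_combination (-(g 0 * g 1 * g 2) * u 0 * u 1) * h2 +
      (g 0 * g 1 * g 2 * (u 0 * w 1 + w 0 * u 1)) * h1

end Vale.Agent.P011Z.Cl.Uni3x

end
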