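import Vale.Agent.P011Z.Cl.Lie
import Vale.Agent.P011Z.Cl.Frm
import Vale.Agent.P011Z.Cl.Tri

/-!
Identities for singular elements of the Albert algebra.
-/

open Matrix Module

noncomputable section

namespace Vale.Agent.P011Z.Cl.Uni3x

open Vale.Agent.P011.D4 Vale.Agent.P011.D4.Oct Vale.Agent.P011.E6 Vale.Agent.P011.E6.Alb

theorem pol1 (x y z : J) : cross (cross x y) (cross x z) + cross (adj x) (cross y z) =
    tf (adj x) y • z + tf (adj x) z • y + tf x (cross y z) • x := by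
  have h1 := adj_cross x (y + z)
  simp only [cross_add_right, adj_add, tf_add_right] at h1
  linear_combination (norm := module) h1 - adj_cross x y - adj_cross x z

theorem pol2 (x w y z : J) : cross (cross x y) (cross w z) + cross (cross w y) (cross x z) +
    cross (cross x w) (cross y z) = tf (cross x w) y • z + tf (cross x w) z • y +
      tf x (cross y z) • w + tf w (cross y z) • x := by
  have h1 := pol1 (x + w) y z
  simp only [cross_add_right, cross_add_left, adj_add, tf_add_left] at h1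
  linear_combination (norm := module) h1 - pol1 x y z - pol1 w y z

theorem sing1 {v : J} (hv : adj v = 0) (x y : J) :
    cross (cross v x) (cross v y) = tf v (cross x y) • v := by
  have h := pol1 v x y
  rwa [hv, cross_zero_left, tf_zero_left, tf_zero_left, zero_smul, zero_smul, add_zero, zero_add,
    zero_add] at h

theorem sing2 {v : J} (hv : adj v = 0) (e y : J) :
    cross v (cross e (cross v y)) = tf e v • cross v y := by
  refine eq_of_tf fun z => ?_
  rw [cross_comm, tf_cross, cross_comm e, tf_cross_comm, sing1 hv, tf_smul_left, tf_smul_left,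
    tf_cross v, tf_comm e, mul_comm]

theorem vo_smul (s t : Om) (a b x : J) : vo (s • a) (t • b) x = (s * t) • vo a b x := by
  rw [vo, vo, tf_smul_left, tf_smul_right, tf_smul_right, cross_smul_left, cross_smul_left,
    cross_smul_right]
  module

theorem vo_skew {v w : J} (h : cross v w = 0) (e x : J) :
    vo v (cross e w) x = -vo w (cross e v) x := by
  have h1 := pol2 v w x e
  have h2 : tf v (cross e w) = 0 := by rw [cross_comm, ← tf_cross, h, tf_zero_left]
  have h3 : tf w (cross e v) = 0 := by rw [cross_comm, ← tf_cross, cross_comm, h, tf_zero_left]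
  rw [h, cross_zero_left, tf_zero_left, tf_zero_left, tf_comm v, tf_comm w, tf_cross, tf_cross,
    cross_comm w e, cross_comm v e] at h1
  rw [vo, vo, h2, h3]
  linear_combination (norm := module) -h1

theorem voL_apply (a b x : J) : voL a b x = vo a b x := rfl

theorem vo_cube {v b : J} (hv : adj v = 0) (h : tf v b = 0) : voL v b * voL v b * voL v b = 0 := by
  have h0 : cross v v = 0 := by rw [Alb.cross_self, hv, smul_zero]
  have h1 : vo v b v = 0 := by rw [vo, h, h0, cross_zero_left, zero_smul, add_zero, sub_zero]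
  have h2 : ∀ x, cross v (vo v b x) = 0 := fun x => by
    rw [vo, h, zero_smul, zero_add, cross_sub_right, cross_smul_right, h0, smul_zero,
      cross_comm (cross v x), sing2 hv, tf_comm, h, zero_smul, sub_zero]
  refine LinearMap.ext fun x => ?_
  rw [Module.End.mul_apply, Module.End.mul_apply, voL_apply, voL_apply, voL_apply,
    LinearMap.zero_apply]
  have h3 : vo v b (vo v b x) = tf (vo v b x) b • v := by
    rw [vo, h2, h, cross_zero_left, zero_smul, zero_add, sub_zero]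
  rw [h3, (vo_lin v b).map_smul, h1, smul_zero]

section wt

variable {g : Fin 3 → Om}

theorem tf_wt (g : Fin 3 → Om) (x y : J) : tf (wtJ g x) y = tf x (wtJ g y) := by
  simp only [tf_eq, wtJ, dg_jm, sl_jm, bil_smul_left, bil_smul_right]
  exact Finset.sum_congr rfl fun i _ => by ring

theorem wt_inv (hg : ∀ i, g i ≠ 0) (x : J) : wtJ g (wtJ g⁻¹ x) = x :=
  Frmx.wtJ_wtJ (fun i => mul_inv_cancel₀ (hg i)) x

theorem inv_wt (hg : ∀ i, g i ≠ 0) (x : J) : wtJ g⁻¹ (wtJ g x) = x :=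
  Frmx.wtJ_wtJ (fun i => inv_mul_cancel₀ (hg i)) x

theorem semi_wt (hg : ∀ i, g i ≠ 0) : Semi 1 (wtJ g) :=
  ⟨(Frmx.wtJ_lin g).map_add, (Frmx.wtJ_lin g).map_smul,
    Function.bijective_iff_has_inverse.2 ⟨_, inv_wt hg, wt_inv hg⟩⟩

theorem dag_wt (hg : ∀ i, g i ≠ 0) (y : J) : dag 1 (wtJ g) y = wtJ g⁻¹ y :=
  dag_eq (semi_wt hg) fun x => by rw [tf_wt, wt_inv hg, AlgEquiv.one_apply]

theorem cross_wt (hg : ∀ i, g i ≠ 0) (x y : J) :
    cross (wtJ g x) (wtJ g y) = (g 0 * g 1 * g 2) ^ 2 • wtJ g⁻¹ (cross x y) := by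
  rw [cross_sim (semi_wt hg) (Frmx.cub_wtJ g), dag_wt hg]

theorem adj_wt (hg : ∀ i, g i ≠ 0) {x : J} (hx : adj x = 0) : adj (wtJ g x) = 0 := by
  rw [adj_sim (semi_wt hg) (Frmx.cub_wtJ g), hx, dag_wt hg, (Frmx.wtJ_lin _).map_zero, smul_zero]

theorem vo_wt (hg : ∀ i, g i ≠ 0) (a b x : J) :
    vo (wtJ g a) (wtJ g⁻¹ b) (wtJ g x) = wtJ g (vo a b x) := by
  rw [← dag_wt hg]
  exact vo_sim ⟨semi_wt hg, _, pow_ne_zero 2 (mul_ne_zero (mul_ne_zero (hg 0) (hg 1)) (hg 2)),
    Frmx.cub_wtJ g⟩ a b x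

end wt

section al

variable {G : Subgroup Gq} {α : Gq → O → O} {σ : Gq}

theorem tf_al (h : HA G α) (hσ : σ ∈ G) (x y : J) :
    tf (al σ (α σ) x) (al σ (α σ) y) = σ (tf x y) := (al_props (h.semi σ hσ) (h.hom σ hσ)).2.2 x y

theorem semi_al (h : HA G α) (hσ : σ ∈ G) : Semi σ (al σ (α σ)) :=
  (al_props (h.semi σ hσ) (h.hom σ hσ)).1.toSemi

theorem cross_al (h : HA G α) (hσ : σ ∈ G) (x y : J) :
    al σ (α σ) (cross x y) = cross (al σ (α σ) x) (al σ (α σ) y) := by
  rw [cross_sim (semi_al h hσ) (l := 1) fun x => by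
    rw [one_mul, (al_props (h.semi σ hσ) (h.hom σ hσ)).2.1], one_smul,
    dag_eq (semi_al h hσ) fun z => tf_al h hσ z _]

theorem vo_al (h : HA G α) (hσ : σ ∈ G) (a b x : J) :
    al σ (α σ) (vo a b x) = vo (al σ (α σ) a) (al σ (α σ) b) (al σ (α σ) x) := by
  have hs := semi_al h hσ
  rw [vo, vo, hs.sub, hs.add, hs.smul, hs.smul, cross_al h hσ, cross_al h hσ, tf_al h hσ,
    tf_al h hσ]

theorem al_al (h : HA G α) (hσ : σ ∈ G) {τ : Gq} (hτ : τ ∈ G) (x : J) :
    al σ (α σ) (al τ (α τ) x) = al (σ * τ) (α (σ * τ)) x := by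
  refine j_ext (fun i => ?_) fun i => ?_
  · rw [Prcx.dg_al, Prcx.dg_al, Prcx.dg_al]
    rfl
  · rw [Prcx.sl_al, Prcx.sl_al, Prcx.sl_al, h.mul σ hσ τ hτ]

theorem ta_al (h : HA G α) : TA G fun σ => al σ (α σ) := by
  refine ⟨h.opn, fun σ hσ => semi_al h hσ, fun σ hσ τ hτ => al_al h hσ hτ, fun x => ?_⟩
  obtain ⟨H, hH, h1⟩ := opn_fin (dg x)
  choose K hK hk using fun i => h.smo (sl x i)
  refine ⟨H ⊓ ⨅ i, K i, hH.inf (opn_iInf hK), fun σ hσ hσG => j_ext (fun i => ?_) fun i => ?_⟩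
  · rw [Prcx.dg_al, h1 σ hσ.1]
  · rw [Prcx.sl_al, hk i σ (Subgroup.mem_iInf.1 hσ.2 i) hσG]

theorem al_wt (h : HA G α) (hσ : σ ∈ G) {g : Fin 3 → Om} (hg : ∀ i, σ (g i) = g i) (x : J) :
    al σ (α σ) (wtJ g x) = wtJ g (al σ (α σ) x) := by
  refine j_ext (fun i => ?_) fun i => ?_
  · simp only [Prcx.dg_al, wtJ, dg_jm, map_mul, map_pow, hg]
  · simp only [Prcx.sl_al, wtJ, sl_jm, (h.semi σ hσ).smul, map_mul, hg]

end al

end Vale.Agent.P011Z.Cl.Uni3x

end
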